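import Vale.Agent.P181.SZR4.Ren

set_option autoImplicit false

/-!
# P181, DG, D2: the part of a polynomial with exponents in a given set, and a filtration lemma
-/

open MvPolynomial

namespace Vale.Agent.P181.DG2.H398

open Vale.Agent.P181.T4 (HW rowOp rowOp_apply mem_HW)
open Vale.Agent.P181.SZR4 (vm vm_injective)

section fp

variable {m : ℕ} {σ : Type}

open scoped Classical in
/-- The part with exponents in `P`. -/
noncomputable def fp (P : (Fin m × σ →₀ ℕ) → Prop) :
    MvPolynomial (Fin m × σ) ℂ →ₗ[ℂ] MvPolynomial (Fin m × σ) ℂ :=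
  (basisMonomials (Fin m × σ) ℂ).constr ℂ fun v => if P v then monomial v 1 else 0

open scoped Classical in
lemma fp_monomial (P : (Fin m × σ →₀ ℕ) → Prop) (v : Fin m × σ →₀ ℕ) (r : ℂ) :
    fp P (monomial v r) = if P v then monomial v r else 0 := by
  have h1 : (monomial v r : MvPolynomial (Fin m × σ) ℂ) = r • basisMonomials (Fin m × σ) ℂ v := by
    rw [coe_basisMonomials, smul_monomial, smul_eq_mul, mul_one]
  rw [h1, map_smul, fp, Module.Basis.constr_basis]
  split_ifs
  · rw [coe_basisMonomials]
  · rw [smul_zero]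

lemma fp_mon_of (P : (Fin m × σ →₀ ℕ) → Prop) {v : Fin m × σ →₀ ℕ} (r : ℂ) (h : P v) :
    fp P (monomial v r) = monomial v r := by
  classical
  rw [fp_monomial, if_pos h]

lemma fp_mon_not (P : (Fin m × σ →₀ ℕ) → Prop) {v : Fin m × σ →₀ ℕ} (r : ℂ) (h : ¬ P v) :
    fp P (monomial v r) = 0 := by
  classical
  rw [fp_monomial, if_neg h]

open scoped Classical in
lemma coeff_fp (P : (Fin m × σ →₀ ℕ) → Prop) (f : MvPolynomial (Fin m × σ) ℂ)
    (u : Fin m × σ →₀ ℕ) : coeff u (fp P f) = if P u then coeff u f else 0 := by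
  induction f using MvPolynomial.induction_on' with
  | monomial v r =>
    by_cases hv : P v
    · rw [fp_mon_of P r hv, coeff_monomial]
      by_cases hu : v = u
      · subst hu
        rw [if_pos rfl, if_pos hv]
      · rw [if_neg hu, ite_self]
    · rw [fp_mon_not P r hv, coeff_zero, coeff_monomial]
      by_cases hu : v = u
      · subst hu
        rw [if_neg hv]
      · rw [if_neg hu, ite_self]
  | add p q hp hq =>
    rw [map_add, coeff_add, coeff_add, hp, hq]
    split_ifs
    · rfl
    · rw [add_zero]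

lemma coeff_fp_of {P : (Fin m × σ →₀ ℕ) → Prop} (f : MvPolynomial (Fin m × σ) ℂ)
    {u : Fin m × σ →₀ ℕ} (h : P u) : coeff u (fp P f) = coeff u f := by
  classical
  rw [coeff_fp, if_pos h]

lemma coeff_fp_not {P : (Fin m × σ →₀ ℕ) → Prop} (f : MvPolynomial (Fin m × σ) ℂ)
    {u : Fin m × σ →₀ ℕ} (h : ¬ P u) : coeff u (fp P f) = 0 := by
  classical
  rw [coeff_fp, if_neg h]

lemma of_coeff_fp {P : (Fin m × σ →₀ ℕ) → Prop} {f : MvPolynomial (Fin m × σ) ℂ}
    {u : Fin m × σ →₀ ℕ} (h : coeff u (fp P f) ≠ 0) : P u ∧ coeff u f ≠ 0 := by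
  by_cases hu : P u
  · rw [coeff_fp_of f hu] at h
    exact ⟨hu, h⟩
  · exact absurd (coeff_fp_not f hu) h

/-- column sums after moving one box from row `i` to row `s` -/
lemma colsum_move [Fintype σ] [DecidableEq σ] (v : Fin m × σ →₀ ℕ) (s i : Fin m) (j k : σ)
    (hj : v (i, j) ≠ 0) :
    ∑ i', (Finsupp.single (s, j) 1 + (v - Finsupp.single (i, j) 1) : Fin m × σ →₀ ℕ) (i', k) =
      ∑ i', v (i', k) := by
  classical
  by_cases hk : j = k
  · subst hk
    have h1 : ∑ i', (v - Finsupp.single (i, j) 1 : Fin m × σ →₀ ℕ) (i', j) + 1 =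
        ∑ i', v (i', j) := by
      rw [← Finset.add_sum_erase _ _ (Finset.mem_univ i), ← Finset.add_sum_erase _ _
        (Finset.mem_univ i)]
      have h2 : ∑ i' ∈ Finset.univ.erase i, (v - Finsupp.single (i, j) 1 : Fin m × σ →₀ ℕ) (i', j)
          = ∑ i' ∈ Finset.univ.erase i, v (i', j) := by
        refine Finset.sum_congr rfl fun i' hi' => ?_
        have : i ≠ i' := fun h => (Finset.mem_erase.1 hi').1 h.symm
        rw [Finsupp.tsub_apply, Finsupp.single_eq_of_ne, Nat.sub_zero]
        intro h
        exact this (congrArg Prod.fst h).symm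
      rw [h2, Finsupp.tsub_apply, Finsupp.single_eq_same]
      omega
    simp only [Finsupp.add_apply, Finset.sum_add_distrib]
    have h3 : ∑ i', (Finsupp.single (s, j) 1 : Fin m × σ →₀ ℕ) (i', j) = 1 := by
      rw [Finset.sum_eq_single s]
      · exact Finsupp.single_eq_same
      · intro b _ hb
        apply Finsupp.single_eq_of_ne
        intro h
        exact hb (congrArg Prod.fst h)
      · intro h
        exact absurd (Finset.mem_univ _) h
    rw [h3]
    omega
  · refine Finset.sum_congr rfl fun i' _ => ?_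
    rw [Finsupp.add_apply, Finsupp.tsub_apply, Finsupp.single_eq_of_ne, Finsupp.single_eq_of_ne,
      Nat.sub_zero, zero_add]
    · intro h
      exact hk (congrArg Prod.snd h).symm
    · intro h
      exact hk (congrArg Prod.snd h).symm

lemma fp_rowOp [Fintype σ] {P : (Fin m × σ →₀ ℕ) → Prop}
    (hP : ∀ v w : Fin m × σ →₀ ℕ, (∀ j, ∑ i, v (i, j) = ∑ i, w (i, j)) → (P v ↔ P w))
    (s i : Fin m) (f : MvPolynomial (Fin m × σ) ℂ) :
    rowOp s i (fp P f) = fp P (rowOp s i f) := by
  classical
  induction f using MvPolynomial.induction_on' with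
  | monomial v r =>
    have h1 : ∀ j, X (s, j) * pderiv (i, j) (monomial v r) =
        monomial (Finsupp.single (s, j) 1 + (v - Finsupp.single (i, j) 1)) (r * v (i, j)) := by
      intro j
      rw [pderiv_monomial, X, monomial_mul, one_mul]
    have h2 : ∀ j, v (i, j) ≠ 0 →
        (P (Finsupp.single (s, j) 1 + (v - Finsupp.single (i, j) 1)) ↔ P v) := fun j hj =>
      hP _ _ fun k => colsum_move v s i j k hj
    by_cases hv : P v
    · rw [fp_mon_of P r hv, rowOp_apply, map_sum]
      refine Finset.sum_congr rfl fun j _ => ?_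
      rw [h1 j]
      by_cases hj : v (i, j) = 0
      · rw [hj, Nat.cast_zero, mul_zero, monomial_zero, map_zero]
      · rw [fp_mon_of P _ ((h2 j hj).2 hv)]
    · rw [fp_mon_not P r hv, map_zero, rowOp_apply, map_sum]
      symm
      refine Finset.sum_eq_zero fun j _ => ?_
      rw [h1 j]
      by_cases hj : v (i, j) = 0
      · rw [hj, Nat.cast_zero, mul_zero, monomial_zero, map_zero]
      · exact fp_mon_not P _ fun h => hv ((h2 j hj).1 h)
  | add p q hp hq => rw [map_add, map_add, map_add, map_add, hp, hq]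

lemma fp_rename {P : (Fin m × σ →₀ ℕ) → Prop} {g : σ → σ}
    (hP : ∀ v : Fin m × σ →₀ ℕ, P (v.mapDomain (vm m g)) ↔ P v)
    (f : MvPolynomial (Fin m × σ) ℂ) :
    rename (vm m g) (fp P f) = fp P (rename (vm m g) f) := by
  classical
  induction f using MvPolynomial.induction_on' with
  | monomial v r =>
    rw [rename_monomial]
    by_cases hv : P v
    · rw [fp_mon_of P r hv, rename_monomial, fp_mon_of P r ((hP v).2 hv)]
    · rw [fp_mon_not P r hv, map_zero, fp_mon_not P r fun h => hv ((hP v).1 h)]
  | add p q hp hq => rw [map_add, map_add, map_add, map_add, hp, hq]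

end fp

/-- **The filtration lemma.** `h` is a height on the indices; if the components `T k'` of `F` with
`h k < h k'` vanish then `T k F ∈ U k`. -/
lemma filt {V : Type} [AddCommGroup V] [Module ℂ V] {K : Type} (h : K → ℕ) (W : K → Type)
    [∀ k, AddCommGroup (W k)] [∀ k, Module ℂ (W k)] (U : ∀ k, Submodule ℂ (W k))
    [∀ k, FiniteDimensional ℂ (U k)] (T : ∀ k, V →ₗ[ℂ] W k) (s : Finset K) :
    ∀ (V' : Submodule ℂ V) [FiniteDimensional ℂ V'],
      (∀ F ∈ V', ∀ k ∈ s, (∀ k' ∈ s, h k < h k' → T k' F = 0) → T k F ∈ U k) →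
      (∀ F ∈ V', (∀ k ∈ s, T k F = 0) → F = 0) →
      Module.finrank ℂ V' ≤ ∑ k ∈ s, Module.finrank ℂ (U k) := by
  classical
  induction s using Finset.strongInduction with
  | H s ih =>
    intro V' _ h1 h2
    rcases s.eq_empty_or_nonempty with rfl | hs
    · have : V' = ⊥ := by
        rw [eq_bot_iff]
        intro F hF
        exact (Submodule.mem_bot ℂ).2 (h2 F hF fun k hk => absurd hk (Finset.notMem_empty k))
      rw [this, finrank_bot]
      exact Nat.zero_le _
    · obtain ⟨k₀, hk₀, hmax⟩ := Finset.exists_max_image s h hs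
      have h3 : ∀ F ∈ V', T k₀ F ∈ U k₀ := fun F hF =>
        h1 F hF k₀ hk₀ fun k' hk' hlt => absurd (hmax k' hk') (not_le.2 hlt)
      let L : V' →ₗ[ℂ] U k₀ :=
        { toFun := fun F => ⟨T k₀ F, h3 F F.2⟩
          map_add' := fun F G => Subtype.ext (map_add (T k₀) (F : V) G)
          map_smul' := fun c F => Subtype.ext (map_smul (T k₀) c (F : V)) }
      let V'' : Submodule ℂ V := V' ⊓ LinearMap.ker (T k₀)
      have : FiniteDimensional ℂ V'' := Submodule.finiteDimensional_of_le inf_le_left
      have h4 : Module.finrank ℂ V'' ≤ ∑ k ∈ s.erase k₀, Module.finrank ℂ (U k) := by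
        apply ih (s.erase k₀) (Finset.erase_ssubset hk₀) V''
        · intro F hF k hk hk'
          refine h1 F hF.1 k (Finset.mem_of_mem_erase hk) fun k' hk1 hlt => ?_
          by_cases hkk : k' = k₀
          · rw [hkk]
            exact hF.2
          · exact hk' k' (Finset.mem_erase.2 ⟨hkk, hk1⟩) hlt
        · intro F hF h5
          refine h2 F hF.1 fun k hk => ?_
          by_cases hkk : k = k₀
          · rw [hkk]
            exact hF.2
          · exact h5 k (Finset.mem_erase.2 ⟨hkk, hk⟩)
      have h5 : Module.finrank ℂ (LinearMap.range L) + Module.finrank ℂ (LinearMap.ker L) =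
          Module.finrank ℂ V' := LinearMap.finrank_range_add_finrank_ker L
      have h6 : Module.finrank ℂ (LinearMap.range L) ≤ Module.finrank ℂ (U k₀) :=
        Submodule.finrank_le _
      have h7 : Module.finrank ℂ (LinearMap.ker L) ≤ Module.finrank ℂ V'' := by
        let M : LinearMap.ker L →ₗ[ℂ] V'' :=
          { toFun := fun F => ⟨F.1.1, F.1.2, congrArg Subtype.val (LinearMap.mem_ker.1 F.2)⟩
            map_add' := fun F G => rfl
            map_smul' := fun c F => rfl }
        refine LinearMap.finrank_le_finrank_of_injective (f := M) fun F G hFG => ?_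
        have h8 : ((M F : V'') : V) = ((M G : V'') : V) := by rw [hFG]
        exact Subtype.ext (Subtype.ext h8)
      rw [← Finset.add_sum_erase _ _ hk₀]
      omega

end Vale.Agent.P181.DG2.H398
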