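import Vale.Agent.P181.DG.Defs
import Vale.Agent.P181.SZT0.Tr
import Vale.Agent.P181.DG2.H398.Fp

set_option autoImplicit false

/-!
# P181, DG, D2: `UpT`
-/

open MvPolynomial

namespace Vale.Agent.P181.DG2.H398

open Vale.Agent.P181.T4 (HW rowOp rowOp_apply mem_HW)
open Vale.Agent.P181.SZ (TI mem_TI)
open Vale.Agent.P181.SZR4 (vm vm_injective coeff_ren ren_mem_HW)
open Vale.Agent.P181.DG

/-- the column sums of an exponent -/
def cs {m : ℕ} {σ : Type} (v : Fin m × σ →₀ ℕ) (j : σ) : ℕ := ∑ i, v (i, j)

/-- the exponents of the part with large columns `d` and small columns -/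
def PP {m : ℕ} {σ : Type} {t : ℕ} (S : ℕ) (d : σ → ℕ) (v : Fin m × (σ ⊕ Fin t) →₀ ℕ) : Prop :=
  (∀ j : σ, ∑ i, v (i, Sum.inl j) = d j) ∧ ∀ j : Fin t, ∑ i, v (i, Sum.inr j) < S

section part

variable {m S t : ℕ} {σ : Type} [Fintype σ] {d : σ → ℕ} {mu : Fin m → ℕ}

instance finiteDimensional_PKT : FiniteDimensional ℂ (PKT m S σ d t mu) :=
  Submodule.finiteDimensional_of_le (S₂ := HW m (σ ⊕ Fin t) mu) fun _ h => h.1

lemma cs_mapDomain {τ τ' : Type} {g : τ → τ'} (hg : Function.Injective g)
    (v : Fin m × τ →₀ ℕ) (j : τ) : cs (v.mapDomain (vm m g)) (g j) = cs v j :=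
  Finset.sum_congr rfl fun i _ => Finsupp.mapDomain_apply (vm_injective hg) v (i, j)

lemma cs_add_single {τ : Type} [DecidableEq τ] (v : Fin m × τ →₀ ℕ) (i : Fin m) (j k : τ) :
    cs (v + Finsupp.single (i, j) 1) k = cs v k + if j = k then 1 else 0 := by
  classical
  unfold cs
  simp only [Finsupp.add_apply, Finset.sum_add_distrib]
  congr 1
  by_cases h : j = k
  · subst h
    rw [if_pos rfl, Finset.sum_eq_single i]
    · exact Finsupp.single_eq_same
    · intro b _ hb
      apply Finsupp.single_eq_of_ne
      intro h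
      exact hb (congrArg Prod.fst h)
    · intro h
      exact absurd (Finset.mem_univ _) h
  · rw [if_neg h]
    refine Finset.sum_eq_zero fun i' _ => ?_
    apply Finsupp.single_eq_of_ne
    intro h'
    exact h (congrArg Prod.snd h').symm

/-- **the part of a polynomial whose neighbouring parts vanish** -/
lemma fp_mem_PKT {f : MvPolynomial (Fin m × (σ ⊕ Fin t)) ℂ} (hf : f ∈ HW m (σ ⊕ Fin t) mu)
    (hs : ∀ e : Equiv.Perm (σ ⊕ Fin t), rename (vm m e) f = f)
    (hd : ∀ i, ∑ j, pderiv (i, j) f = 0)
    (hv : ∀ u : Fin m × (σ ⊕ Fin t) →₀ ℕ, PP S d u → ∀ i j,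
      ¬ PP S d (u + Finsupp.single (i, j) 1) → coeff (u + Finsupp.single (i, j) 1) f = 0) :
    fp (PP S d) f ∈ PKT m S σ d t mu := by
  classical
  refine ⟨⟨fun v hv' => hf.1 v (of_coeff_fp hv').2, fun s i h => ?_⟩, fun v hv' =>
    (of_coeff_fp hv').1, fun e s he => ?_, fun i => ?_⟩
  · rw [fp_rowOp _ s i f, hf.2 s i h, map_zero]
    intro v w hvw
    unfold PP
    constructor
    · rintro ⟨h1, h2⟩
      exact ⟨fun j => by rw [← hvw]; exact h1 j, fun j => by rw [← hvw]; exact h2 j⟩
    · rintro ⟨h1, h2⟩
      exact ⟨fun j => by rw [hvw]; exact h1 j, fun j => by rw [hvw]; exact h2 j⟩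
  · have h1 : (fun p : Fin m × (σ ⊕ Fin t) => (p.1, Sum.map e s p.2)) =
        vm m (Equiv.sumCongr e s) := by
      funext p
      rfl
    rw [h1, fp_rename _ f, hs]
    intro v
    have h2 : ∀ j, ∑ i, v.mapDomain (vm m (Equiv.sumCongr e s)) (i, Equiv.sumCongr e s j) =
        ∑ i, v (i, j) := fun j => cs_mapDomain (Equiv.sumCongr e s).injective v j
    constructor
    · rintro ⟨h3, h4⟩
      refine ⟨fun j => ?_, fun j => ?_⟩
      · rw [← h2 (Sum.inl j), ← he j]
        exact h3 (e j)
      · rw [← h2 (Sum.inr j)]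
        exact h4 (s j)
    · rintro ⟨h3, h4⟩
      refine ⟨fun j => ?_, fun j => ?_⟩
      · obtain ⟨j, rfl⟩ := e.surjective j
        rw [he j, ← h3 j]
        exact h2 (Sum.inl j)
      · obtain ⟨j, rfl⟩ := s.surjective j
        have h5 := h4 j
        rw [← h2 (Sum.inr j)] at h5
        exact h5
  · ext u
    rw [coeff_sum, coeff_zero]
    by_cases hu : PP S d u
    · have h1 : ∀ j : σ ⊕ Fin t, coeff u (pderiv (i, j) (fp (PP S d) f)) =
          coeff u (pderiv (i, j) f) := by
        intro j
        rw [coeff_pderiv, coeff_pderiv]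
        congr 1
        by_cases h : PP S d (u + Finsupp.single (i, j) 1)
        · exact coeff_fp_of f h
        · rw [coeff_fp_not f h, hv u hu i j h]
      have h2 : ∀ j : σ, coeff u (pderiv (i, Sum.inl j) (fp (PP S d) f)) = 0 := by
        intro j
        rw [coeff_pderiv, coeff_fp_not, zero_mul]
        intro h
        have h3 := h.1 j
        have h4 := cs_add_single u i (Sum.inl j : σ ⊕ Fin t) (Sum.inl j)
        rw [if_pos rfl] at h4
        have h5 := hu.1 j
        have h6 : cs (u + Finsupp.single (i, Sum.inl j) 1) (Sum.inl j) = d j := h3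
        have h7 : cs u (Sum.inl j) = d j := h5
        omega
      have h3 : ∑ j : σ ⊕ Fin t, coeff u (pderiv (i, j) (fp (PP S d) f)) = 0 := by
        rw [Finset.sum_congr rfl fun j _ => h1 j, ← coeff_sum, hd i, coeff_zero]
      rw [Fintype.sum_sum_type, Finset.sum_eq_zero fun j _ => h2 j, zero_add] at h3
      exact h3
    · refine Finset.sum_eq_zero fun j _ => ?_
      rw [coeff_pderiv, coeff_fp_not, zero_mul]
      intro h
      apply hu
      have h4 := fun k => cs_add_single u i (Sum.inr j : σ ⊕ Fin t) k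
      refine ⟨fun j' => ?_, fun j' => ?_⟩
      · have h5 := h4 (Sum.inl j')
        rw [if_neg (by simp)] at h5
        rw [← h.1 j']
        exact h5.symm
      · have h5 := h4 (Sum.inr j')
        have h6 : cs (u + Finsupp.single (i, Sum.inr j) 1) (Sum.inr j') < S := h.2 j'
        have h7 : cs u (Sum.inr j') < S := by omega
        exact h7

end part

section height

variable {m S t : ℕ} {σ : Type} [Fintype σ] {d : σ → ℕ}

/-- the large part of a number -/
def lg (S x : ℕ) : ℕ := if S ≤ x then x else 0

lemma lg_mono (S : ℕ) {x y : ℕ} (h : x ≤ y) : lg S x ≤ lg S y := by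
  unfold lg
  split_ifs <;> omega

lemma height_lt (hd : ∀ j, S ≤ d j) {u : Fin m × (σ ⊕ Fin t) →₀ ℕ}
    (hu : PP S d u) (i : Fin m) (j : σ ⊕ Fin t)
    (h : ¬ PP S d (u + Finsupp.single (i, j) 1)) :
    ∑ j, d j < ∑ k, lg S (cs (u + Finsupp.single (i, j) 1) k) := by
  classical
  have h1 : ∑ j, d j = ∑ k, lg S (cs u k) := by
    rw [Fintype.sum_sum_type]
    have e1 : ∀ j : σ, lg S (cs u (Sum.inl j)) = d j := by
      intro j
      have : cs u (Sum.inl j) = d j := hu.1 j
      rw [this, lg, if_pos (hd j)]
    have e2 : ∀ j : Fin t, lg S (cs u (Sum.inr j)) = 0 := by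
      intro j
      have : cs u (Sum.inr j) < S := hu.2 j
      rw [lg, if_neg (by omega)]
    rw [Finset.sum_congr rfl fun j _ => e1 j, Finset.sum_congr rfl fun j _ => e2 j,
      Finset.sum_const_zero, add_zero]
  rw [h1]
  apply Finset.sum_lt_sum
  · intro k _
    apply lg_mono
    rw [cs_add_single]
    omega
  · refine ⟨j, Finset.mem_univ j, ?_⟩
    have h2 := cs_add_single u i j j
    rw [if_pos rfl] at h2
    rw [h2]
    rcases j with j | j
    · have : cs u (Sum.inl j) = d j := hu.1 j
      have := hd j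
      unfold lg
      split_ifs <;> omega
    · have h3 : cs u (Sum.inr j) < S := hu.2 j
      have h4 : S ≤ cs u (Sum.inr j) + 1 := by
        by_contra hlt
        apply h
        have h5 := fun k => cs_add_single u i (Sum.inr j : σ ⊕ Fin t) k
        refine ⟨fun j' => ?_, fun j' => ?_⟩
        · have h6 := h5 (Sum.inl j')
          rw [if_neg (by simp)] at h6
          rw [← hu.1 j']
          exact h6
        · have h6 := h5 (Sum.inr j')
          have h7 : cs u (Sum.inr j') < S := hu.2 j'
          change cs (u + Finsupp.single (i, Sum.inr j) 1) (Sum.inr j') < S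
          rw [h6]
          by_cases hjj : (Sum.inr j : σ ⊕ Fin t) = Sum.inr j'
          · rw [if_pos hjj]
            have : j = j' := Sum.inr_injective hjj
            subst this
            omega
          · rw [if_neg hjj]
            omega
      unfold lg
      split_ifs <;> omega

end height

section content

variable {m a : ℕ}

/-- the content: the large column sums -/
def ct (S : ℕ) (v : Fin m × Fin a →₀ ℕ) : Multiset ℕ :=
  (Finset.univ.val.map (cs v)).filter (S ≤ ·)

lemma card_ct_le (S : ℕ) (v : Fin m × Fin a →₀ ℕ) : Multiset.card (ct S v) ≤ a := by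
  unfold ct
  refine (Multiset.card_le_card (Multiset.filter_le _ _)).trans ?_
  rw [Multiset.card_map, Finset.card_val, Finset.card_univ, Fintype.card_fin]

lemma map_lg (S : ℕ) (M : Multiset ℕ) :
    M.map (lg S) = M.filter (S ≤ ·) +
      Multiset.replicate (Multiset.card M - Multiset.card (M.filter (S ≤ ·))) 0 := by
  have h := Multiset.filter_add_not (S ≤ ·) M
  have h3 := congrArg Multiset.card h
  rw [Multiset.card_add] at h3
  have h4 : Multiset.card M - Multiset.card (M.filter (S ≤ ·)) =
      Multiset.card (M.filter fun x => ¬ S ≤ x) := by omega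
  rw [h4]
  conv_lhs => rw [← h]
  rw [Multiset.map_add]
  congr 1
  · conv_rhs => rw [← Multiset.map_id (M.filter (S ≤ ·))]
    refine Multiset.map_congr rfl fun x hx => ?_
    rw [lg, if_pos (Multiset.mem_filter.1 hx).2]
    rfl
  · rw [← Multiset.map_const']
    refine Multiset.map_congr rfl fun x hx => ?_
    rw [lg, if_neg (Multiset.mem_filter.1 hx).2]

lemma sum_ct (S : ℕ) (v : Fin m × Fin a →₀ ℕ) : (ct S v).sum = ∑ j, lg S (cs v j) := by
  have h := congrArg Multiset.sum (map_lg S (Finset.univ.val.map (cs v)))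
  rw [Multiset.sum_add, Multiset.sum_replicate, smul_zero, add_zero, Multiset.map_map] at h
  exact h.symm

/-- the standard columns of a multiset -/
noncomputable def G' (a : ℕ) (k : Multiset ℕ) : Fin k.toList.length ⊕ Fin (a - Multiset.card k) → ℕ :=
  Sum.elim (fun j => k.toList.get j) fun _ => 0

lemma map_G' (a : ℕ) (k : Multiset ℕ) :
    Finset.univ.val.map (G' a k) = k + Multiset.replicate (a - Multiset.card k) 0 := by
  have h1 : (Finset.univ : Finset (Fin k.toList.length ⊕ Fin (a - Multiset.card k))).val =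
      (Finset.univ : Finset (Fin k.toList.length)).val.map Sum.inl +
        (Finset.univ : Finset (Fin (a - Multiset.card k))).val.map Sum.inr := rfl
  rw [h1, Multiset.map_add, Multiset.map_map, Multiset.map_map]
  congr 1
  · have h2 : (G' a k ∘ Sum.inl) = fun j => k.toList.get j := rfl
    rw [h2, Fin.univ_val_map]
    conv_rhs => rw [← Multiset.coe_toList k]
    congr 1
    exact List.ofFn_get _
  · have h2 : (G' a k ∘ Sum.inr) = fun _ => 0 := rfl
    rw [h2, Multiset.map_const', Finset.card_val, Finset.card_univ, Fintype.card_fin]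

/-- the columns can be sorted: the large ones first -/
lemma exists_sorting {S : ℕ} (hS : 1 ≤ S) (v : Fin m × Fin a →₀ ℕ) :
    ∃ g : Fin a ≃ Fin (ct S v).toList.length ⊕ Fin (a - Multiset.card (ct S v)),
      PP S (fun j => (ct S v).toList.get j) (v.mapDomain (vm m g)) := by
  have hc : Multiset.card ((Finset.univ : Finset (Fin a)).val.map (cs v)) = a := by
    rw [Multiset.card_map, Finset.card_val, Finset.card_univ, Fintype.card_fin]
  have hM : Finset.univ.val.map (fun j => lg S (cs v j)) = Finset.univ.val.map (G' a (ct S v)) := by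
    rw [map_G']
    have h := map_lg S (Finset.univ.val.map (cs v))
    rw [Multiset.map_map, hc] at h
    exact h
  obtain ⟨g, hg⟩ := SZT0.exists_equiv _ _ hM
  refine ⟨g, fun j => ?_, fun j => ?_⟩
  · have h1 := hg (g.symm (Sum.inl j))
    rw [g.apply_symm_apply] at h1
    have h2 : (ct S v).toList.get j = lg S (cs v (g.symm (Sum.inl j))) := h1
    have h3 : S ≤ (ct S v).toList.get j := by
      have : (ct S v).toList.get j ∈ ct S v :=
        Multiset.mem_toList.1 (List.get_mem _ _)
      exact (Multiset.mem_filter.1 this).2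
    have h4 := cs_mapDomain g.injective v (g.symm (Sum.inl j))
    rw [g.apply_symm_apply] at h4
    change cs (v.mapDomain (vm m g)) (Sum.inl j) = (ct S v).toList.get j
    rw [h4, h2]
    rw [h2] at h3
    unfold lg at h3 ⊢
    split_ifs at h3 ⊢ with h5
    · rfl
    · omega
  · have h1 := hg (g.symm (Sum.inr j))
    rw [g.apply_symm_apply] at h1
    have h2 : 0 = lg S (cs v (g.symm (Sum.inr j))) := h1
    have h4 := cs_mapDomain g.injective v (g.symm (Sum.inr j))
    rw [g.apply_symm_apply] at h4
    change cs (v.mapDomain (vm m g)) (Sum.inr j) < S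
    rw [h4]
    unfold lg at h2
    split_ifs at h2 with h5
    · omega
    · omega

end content

section main

variable {a : ℕ}

/-- the standard arrangement of the columns -/
noncomputable def EE (k : Multiset ℕ) (h : Multiset.card k ≤ a) :
    Fin a ≃ Fin k.toList.length ⊕ Fin (a - Multiset.card k) :=
  (finCongr (by rw [Multiset.length_toList]; omega)).trans finSumFinEquiv.symm

open scoped Classical in
/-- **(D2)** -/
theorem upT : UpT := by
  intro a b m S mu hS
  set s := (KT (∑ i, mu i) S).filter (fun k => Multiset.card k ≤ a ∧ ∀ x ∈ k, x ≤ b) with hs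
  have hcard : ∀ k : {k // k ∈ s}, Multiset.card k.1 ≤ a := fun k =>
    (Finset.mem_filter.1 k.2).2.1
  have hlarge : ∀ k ∈ s, ∀ x ∈ k, S ≤ x := by
    intro k hk x hx
    obtain ⟨u, -, hu⟩ := Finset.mem_biUnion.1 (Finset.mem_filter.1 hk).1
    exact (Finset.mem_filter.1 hu).2 x hx
  let W : {k // k ∈ s} → Type := fun k =>
    MvPolynomial (Fin m × (Fin k.1.toList.length ⊕ Fin (a - Multiset.card k.1))) ℂ
  let U : ∀ k : {k // k ∈ s}, Submodule ℂ (MvPolynomial
      (Fin m × (Fin k.1.toList.length ⊕ Fin (a - Multiset.card k.1))) ℂ) := fun k =>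
    PKT m S (Fin k.1.toList.length) (fun j => k.1.toList.get j) (a - Multiset.card k.1) mu
  let T : ∀ k : {k // k ∈ s}, MvPolynomial (Fin m × Fin a) ℂ →ₗ[ℂ] MvPolynomial
      (Fin m × (Fin k.1.toList.length ⊕ Fin (a - Multiset.card k.1))) ℂ := fun k =>
    (fp (PP S fun j => k.1.toList.get j)) ∘ₗ (rename (vm m (EE k.1 (hcard k)))).toLinearMap
  -- the content of an exponent
  have hmem : ∀ F ∈ TI a b m mu, ∀ v, coeff v F ≠ 0 → ct S v ∈ s := by
    intro F hF v hv
    have hsum : (ct S v).sum ≤ ∑ i, mu i := by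
      rw [sum_ct]
      calc ∑ j, lg S (cs v j) ≤ ∑ j, cs v j := Finset.sum_le_sum fun j _ => by
            unfold lg
            split_ifs <;> omega
        _ = ∑ i, ∑ j, v (i, j) := Finset.sum_comm
        _ = ∑ i, mu i := Finset.sum_congr rfl fun i _ => hF.1.1 v hv i
    rw [hs, Finset.mem_filter, KT, Finset.mem_biUnion]
    refine ⟨⟨(ct S v).sum, Finset.mem_range.2 (by omega), ?_⟩, card_ct_le S v, fun x hx => ?_⟩
    · rw [Finset.mem_filter, Finset.mem_image]
      refine ⟨⟨⟨ct S v, fun {x} hx => ?_, rfl⟩, Finset.mem_univ _, rfl⟩, fun x hx =>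
        (Multiset.mem_filter.1 hx).2⟩
      have := (Multiset.mem_filter.1 hx).2
      omega
    · obtain ⟨j, -, rfl⟩ := Multiset.mem_map.1 (Multiset.mem_filter.1 hx).1
      exact hF.2.2.1 v hv j
  have hdet : ∀ F ∈ TI a b m mu, ∀ v, coeff v F ≠ 0 → ∀ (hk : ct S v ∈ s),
      T ⟨ct S v, hk⟩ F ≠ 0 := by
    intro F hF v hv hk h0
    obtain ⟨g, hg⟩ := exists_sorting hS v
    have h1 : rename (vm m (EE (ct S v) (hcard ⟨ct S v, hk⟩))) F = rename (vm m g) F := by
      have h2 := hF.2.1 (g.trans (EE (ct S v) (hcard ⟨ct S v, hk⟩)).symm)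
      conv_lhs => rw [← h2]
      rw [rename_rename]
      congr 2
      funext p
      exact Prod.ext rfl ((EE (ct S v) (hcard ⟨ct S v, hk⟩)).apply_symm_apply (g p.2))
    have h3 : coeff (v.mapDomain (vm m g)) (T ⟨ct S v, hk⟩ F) = coeff v F := by
      change coeff (v.mapDomain (vm m g)) (fp (PP S fun j => (ct S v).toList.get j)
        (rename (vm m (EE (ct S v) (hcard ⟨ct S v, hk⟩))) F)) = coeff v F
      rw [coeff_fp_of _ hg, h1]
      exact coeff_rename_mapDomain _ (vm_injective g.injective) F v
    rw [h0, coeff_zero] at h3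
    exact hv h3.symm
  have key := filt (K := {k // k ∈ s}) (fun k => k.1.sum) W U T Finset.univ (TI a b m mu)
    (by
      intro F hF k _ hk'
      apply fp_mem_PKT
      · exact ren_mem_HW (EE k.1 (hcard k)).injective hF.1
      · intro e
        change rename (vm m e) (rename (vm m (EE k.1 (hcard k))) F) =
          rename (vm m (EE k.1 (hcard k))) F
        have h2 := hF.2.1 (((EE k.1 (hcard k)).trans e).trans (EE k.1 (hcard k)).symm)
        conv_rhs => rw [← h2]
        rw [rename_rename, rename_rename]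
        have h3 : vm m e ∘ vm m (EE k.1 (hcard k)) = vm m (EE k.1 (hcard k)) ∘
            (fun p : Fin m × Fin a => (p.1, (((EE k.1 (hcard k)).trans e).trans
              (EE k.1 (hcard k)).symm) p.2)) := by
          funext p
          exact Prod.ext rfl ((EE k.1 (hcard k)).apply_symm_apply
            (e (EE k.1 (hcard k) p.2))).symm
        rw [h3]
      · intro i
        have h2 := congrArg (rename (vm m (EE k.1 (hcard k)))) (hF.2.2.2 i)
        rw [map_sum, map_zero] at h2
        rw [← h2]
        symm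
        refine Fintype.sum_equiv (EE k.1 (hcard k)) _ _ fun j => ?_
        exact (pderiv_rename (vm_injective (EE k.1 (hcard k)).injective) (i, j) F).symm
      · intro u hu i j hj
        by_contra hne
        obtain ⟨v, hv, hv1, -⟩ := coeff_ren (EE k.1 (hcard k)).injective hne
        have hks := hmem F hF v hv
        apply hdet F hF v hv hks
        apply hk' ⟨ct S v, hks⟩ (Finset.mem_univ _)
        change k.1.sum < (ct S v).sum
        have h3 := height_lt (fun j => hlarge k.1 k.2 _
          (Multiset.mem_toList.1 (List.get_mem k.1.toList j))) hu i j hj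
        have h4 : ∑ j : Fin k.1.toList.length, k.1.toList.get j = k.1.sum := by
          rw [← List.sum_ofFn, List.ofFn_get, ← Multiset.sum_coe, Multiset.coe_toList]
        have h5 : ∑ x, lg S (cs (u + Finsupp.single (i, j) 1) x) = (ct S v).sum := by
          rw [sum_ct]
          symm
          refine Fintype.sum_equiv (EE k.1 (hcard k)) _ _ fun j' => ?_
          congr 1
          exact Finset.sum_congr rfl fun i' _ => (hv1 i' j').symm
        rw [h4, h5] at h3
        exact h3)
    (by
      intro F hF h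
      ext v
      rw [coeff_zero]
      by_contra hv
      exact hdet F hF v hv (hmem F hF v hv) (h ⟨ct S v, hmem F hF v hv⟩ (Finset.mem_univ _)))
  refine key.trans (le_of_eq ?_)
  exact Finset.sum_coe_sort s fun k => NT m S mu k (a - Multiset.card k)

end main

end Vale.Agent.P181.DG2.H398
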